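import Vale.Agent.P287.H100.Fourfold

/-!
Rationality of smooth cubic fourfolds containing a plane, by means of nets of quadrics: the
quadratic form over `K = ℂ(s₀, s₁)` of the quadric surface fibration given by the projection from
the plane, or its even Clifford algebra, comes from a net of quadrics in six variables.
-/

namespace Vale.Agent.Results.P287.NetMorita

open MvPolynomial Matrix Module Vale.Agent.P287

/-- The weights `0, 0, 0, 1` of the four coordinates `y₀, y₁, y₂, 1`. -/
def weight : Fin 4 → ℕ := ![0, 0, 0, 1]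

/-- `M` is the matrix of the quadric surface fibration of a cubic fourfold containing the plane
`x₀ = x₁ = x₂ = 0`: it is symmetric and `M i j` is a form in `x₀, x₁, x₂` of degree
`1 + weight i + weight j`. -/
structure IsFibrationMatrix (M : Matrix (Fin 4) (Fin 4) (MvPolynomial (Fin 3) ℂ)) : Prop where
  symm : M.IsSymm
  homogeneous : ∀ i j, (M i j).IsHomogeneous (1 + weight i + weight j)

/-- The cubic form `∑ M i j (x₀, x₁, x₂) v_i v_j` with `v = (x₃, x₄, x₅, 1)`. -/
noncomputable def cubicForm (M : Matrix (Fin 4) (Fin 4) (MvPolynomial (Fin 3) ℂ)) :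
    MvPolynomial (Fin 6) ℂ :=
  ![X 3, X 4, X 5, 1] ⬝ᵥ ((M.map (aeval ![X 0, X 1, X 2])) *ᵥ ![X 3, X 4, X 5, 1])

/-- The form `F` is smooth: its partial derivatives have no common zero but the origin. -/
def IsSmoothForm {n : ℕ} (F : MvPolynomial (Fin n) ℂ) : Prop :=
  ∀ z : Fin n → ℂ, (∀ i, eval z (pderiv i F) = 0) → z = 0

/-- The hypersurface `F = 0` is rational: its function field, in the chart `x₀ = 1`, is the field
of rational functions in four variables over `ℂ`. -/
def IsRationalForm (F : MvPolynomial (Fin 6) ℂ) : Prop :=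
  Nonempty (FractionRing (MvPolynomial (Fin 5) ℂ ⧸
      Ideal.span {aeval (Fin.cons 1 X : Fin 6 → MvPolynomial (Fin 5) ℂ) F}) ≃ₐ[ℂ]
    FractionRing (MvPolynomial (Fin 4) ℂ))

/-- The field `K = ℂ(s₀, s₁)`. -/
abbrev K : Type := FractionRing (MvPolynomial (Fin 2) ℂ)

/-- The generic point `(1, s₀, s₁)` of the plane. -/
noncomputable def gen : Fin 3 → K :=
  ![1, algebraMap (MvPolynomial (Fin 2) ℂ) K (X 0), algebraMap (MvPolynomial (Fin 2) ℂ) K (X 1)]

/-- The value at `v ∈ K⁴` of the quadratic form of the fibration. -/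
noncomputable def fibForm (M : Matrix (Fin 4) (Fin 4) (MvPolynomial (Fin 3) ℂ)) (v : Fin 4 → K) :
    K := v ⬝ᵥ ((M.map (aeval gen)) *ᵥ v)

/-- The value at `w ∈ K⁶` of the net of quadratic forms `Q₀ + s₀ Q₁ + s₁ Q₂`. -/
noncomputable def netForm (Q : Fin 3 → Matrix (Fin 6) (Fin 6) ℂ) (w : Fin 6 → K) : K :=
  ∑ k, gen k * (w ⬝ᵥ (((Q k).map (algebraMap ℂ K)) *ᵥ w))

/-- The quadratic form of the fibration, plus a hyperbolic plane, is similar over `K` to a net of
quadratic forms in six variables. -/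
def SimilarToNet (M : Matrix (Fin 4) (Fin 4) (MvPolynomial (Fin 3) ℂ)) : Prop :=
  ∃ (Q : Fin 3 → Matrix (Fin 6) (Fin 6) ℂ) (l : K), l ≠ 0 ∧
    ∃ φ : ((Fin 4 → K) × K × K) ≃ₗ[K] (Fin 6 → K),
      ∀ v a b, netForm Q (φ (v, a, b)) = l * (fibForm M v + a * b)

/-- The even Clifford algebra over `K` of the quadratic form of the fibration is Morita equivalent
to the one of a net of quadratic forms in six variables. -/
def MoritaToNet (M : Matrix (Fin 4) (Fin 4) (MvPolynomial (Fin 3) ℂ)) : Prop :=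
  ∃ (q : QuadraticForm K (Fin 4 → K)) (Q : Fin 3 → Matrix (Fin 6) (Fin 6) ℂ)
    (N : QuadraticForm K (Fin 6 → K)), (∀ v, q v = fibForm M v) ∧ (∀ w, N w = netForm Q w) ∧
      IsMoritaEquivalent K (CliffordAlgebra.even q) (CliffordAlgebra.even N)

theorem result (M : Matrix (Fin 4) (Fin 4) (MvPolynomial (Fin 3) ℂ)) (hM : IsFibrationMatrix M)
    (hs : IsSmoothForm (cubicForm M)) (h : SimilarToNet M ∨ MoritaToNet M) :
    IsRationalForm (cubicForm M) := by
  have hs' : SmoothForm (H925.cubicOf M) := by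
    intro z hz
    apply hs z
    intro i
    rw [H925.eval_eq_aeval]
    exact hz i
  have h2 : ∀ (Q : Fin 3 → Matrix (Fin 6) (Fin 6) ℂ) (w : Fin 6 → K),
      net Q tvec w = netForm Q w := by
    intro Q w
    simp only [net, netForm, qf, dotProduct, Matrix.mulVec, Matrix.map_apply, Finset.mul_sum]
    refine Finset.sum_congr rfl fun k _ => Finset.sum_congr rfl fun i _ =>
      Finset.sum_congr rfl fun j _ => ?_
    change tvec k * (algebraMap ℂ K (Q k i j) * (w i * w j)) =
      tvec k * (w i * (algebraMap ℂ K (Q k i j) * w j))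
    ring
  rcases h with ⟨Q, l, hl, φ, hφ⟩ | ⟨q, Q, N, hq, hN, h⟩
  · refine H925.NetResult.net_result (H925.cubicOf M)
      (H925.cubicOf_homogeneous M hM.homogeneous) hs' (H925.qM M) (fun w => by
        rw [H925.qM_apply, H925.aeval_wvec_cubicOf M hM.homogeneous]) Q ?_
    let τ : (Fin 4 → K) ≃ₗ[K] (Fin 4 → K) := LinearEquiv.funCongrLeft K K H925.perm4
    refine ⟨l, hl, (LinearEquiv.prodCongr τ (LinearEquiv.refl K (K × K))).trans φ, ?_⟩
    intro v a b
    have h1 : ((LinearEquiv.prodCongr τ (LinearEquiv.refl K (K × K))).trans φ) (v, a, b) =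
        φ (v ∘ H925.perm4, a, b) := rfl
    rw [h1, h2, hφ, H925.qM_apply]
    rfl
  · exact H100.rational_of_morita M hM.homogeneous hs' q hq Q N
      (fun w => by rw [hN, h2]) h

end Vale.Agent.Results.P287.NetMorita
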