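import Vale.Agent.P287.H100.Fourfold
import Vale.Agent.P287.Nod.Final
import Vale.Agent.P287.H597.OddMoving

/-!
Rationality of smooth cubic fourfolds containing a plane, by means of scrolls of lines over plane
curves of even degree, and of plane curves which split in the double plane branched along the
discriminant sextic.
-/

namespace Vale.Agent.Results.P287.PlaneCubics

open MvPolynomial Matrix Module Vale.Agent.P287

/-- The weights `0, 0, 0, 1` of the four coordinates `y₀, y₁, y₂, 1`. -/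
def weight : Fin 4 → ℕ := ![0, 0, 0, 1]

/-- `M` is the matrix of the quadric surface fibration of a cubic fourfold containing the plane
`x₀ = x₁ = x₂ = 0`: it is symmetric and `M i j` is a form in `x₀, x₁, x₂` of degree
`1 + weight i + weight j`. -/
structure IsFibrationMatrix (M : Matrix (Fin 4) (Fin 4) (MvPolynomial (Fin 3) ℂ)) : Prop where
  symm : M.IsSymm
  homogeneous : ∀ i j, (M i j).IsHomogeneous (1 + weight i + weight j)

/-- The cubic form `∑ M i j (x₀, x₁, x₂) v_i v_j` with `v = (x₃, x₄, x₅, 1)`. -/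
noncomputable def cubicForm (M : Matrix (Fin 4) (Fin 4) (MvPolynomial (Fin 3) ℂ)) :
    MvPolynomial (Fin 6) ℂ :=
  ![X 3, X 4, X 5, 1] ⬝ᵥ ((M.map (aeval ![X 0, X 1, X 2])) *ᵥ ![X 3, X 4, X 5, 1])

/-- The form `F` is smooth: its partial derivatives have no common zero but the origin. -/
def IsSmoothForm {n : ℕ} (F : MvPolynomial (Fin n) ℂ) : Prop :=
  ∀ z : Fin n → ℂ, (∀ i, eval z (pderiv i F) = 0) → z = 0

/-- The hypersurface `F = 0` is rational: its function field, in the chart `x₀ = 1`, is the field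
of rational functions in four variables over `ℂ`. -/
def IsRationalForm (F : MvPolynomial (Fin 6) ℂ) : Prop :=
  Nonempty (FractionRing (MvPolynomial (Fin 5) ℂ ⧸
      Ideal.span {aeval (Fin.cons 1 X : Fin 6 → MvPolynomial (Fin 5) ℂ) F}) ≃ₐ[ℂ]
    FractionRing (MvPolynomial (Fin 4) ℂ))

/-- The field `K = ℂ(s₀, s₁)`. -/
abbrev K : Type := FractionRing (MvPolynomial (Fin 2) ℂ)

/-- The generic point `(1, s₀, s₁)` of the plane. -/
noncomputable def gen : Fin 3 → K :=
  ![1, algebraMap (MvPolynomial (Fin 2) ℂ) K (X 0), algebraMap (MvPolynomial (Fin 2) ℂ) K (X 1)]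

/-- The value at `v ∈ K⁴` of the quadratic form of the fibration. -/
noncomputable def fibForm (M : Matrix (Fin 4) (Fin 4) (MvPolynomial (Fin 3) ℂ)) (v : Fin 4 → K) :
    K := v ⬝ᵥ ((M.map (aeval gen)) *ᵥ v)

/-- The quadratic form of the fibration is isotropic: the fibration has a rational section. -/
def IsIsotropic (M : Matrix (Fin 4) (Fin 4) (MvPolynomial (Fin 3) ℂ)) : Prop :=
  ∃ v : Fin 4 → K, v ≠ 0 ∧ fibForm M v = 0

/-- The curve `g = 0` splits in the double plane `z² = f`: `f` is the square of `s / c` in the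
function field of the curve, where `c` is a form. -/
structure Splits (f g s c : MvPolynomial (Fin 3) ℂ) : Prop where
  homogeneous : ∃ k, c.IsHomogeneous k
  not_dvd : ¬ g ∣ c
  square : g ∣ c ^ 2 * f - s ^ 2

/-- The forms `b` of degree `k` with `b² ∈ (h, f)`, modulo `f`: the sections of a theta
characteristic of the curve `f = 0`. -/
noncomputable def sections (f h : MvPolynomial (Fin 3) ℂ) (k : ℕ) :
    Submodule ℂ (MvPolynomial (Fin 3) ℂ ⧸ Ideal.span {f}) :=
  Submodule.span ℂ (Ideal.Quotient.mk (Ideal.span {f}) ''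
    {b | b.IsHomogeneous k ∧ b ^ 2 ∈ Ideal.span {h, f}})

/-- The lines spanned by `w 0` and `w 1` over the curve `g = 0` form a scroll of lines contained
in the fibres, hence in the cubic. -/
structure IsScroll (M : Matrix (Fin 4) (Fin 4) (MvPolynomial (Fin 3) ℂ))
    (g : MvPolynomial (Fin 3) ℂ) (w : Fin 2 → Fin 4 → MvPolynomial (Fin 3) ℂ) : Prop where
  homogeneous : ∃ e : Fin 2 → ℕ, ∀ a i, (w a i).IsHomogeneous (e a + 1 - weight i)
  isotropic : ∀ a b, g ∣ w a ⬝ᵥ (M *ᵥ w b)
  independent : ∃ i j, ¬ g ∣ w 0 i * w 1 j - w 0 j * w 1 i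

/-- The forms `∑ v i y_i` of degree `d + 1`, of multiplicity at least `d` along the plane, which
vanish on the scroll. -/
noncomputable def scrollForms (g : MvPolynomial (Fin 3) ℂ)
    (w : Fin 2 → Fin 4 → MvPolynomial (Fin 3) ℂ) (d : ℕ) :
    Submodule ℂ (Fin 4 → MvPolynomial (Fin 3) ℂ) :=
  Submodule.span ℂ {v | (∀ i, (v i).IsHomogeneous (d + weight i)) ∧ ∀ a, g ∣ w a ⬝ᵥ v}

/-- The part of degree `t + 3` of the ideal of the curve `D : g = 0, z = s / c` in the double plane
`z² = f`: the forms `a + b z`, where `a` and `b` are forms in `x₀, x₁, x₂` of degrees `t + 3` and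
`t`. -/
noncomputable def idealPart (g s c : MvPolynomial (Fin 3) ℂ) (t : ℕ) :
    Submodule ℂ (MvPolynomial (Fin 3) ℂ × MvPolynomial (Fin 3) ℂ) :=
  Submodule.span ℂ {v | v.1.IsHomogeneous (t + 3) ∧ v.2.IsHomogeneous t ∧ g ∣ c * v.1 + s * v.2}

/-- The curve `D : g = 0, z = s / c` in the double plane `z² = f` has arithmetic genus `p`: its
Hilbert polynomial is `n t + 1 - p`, where `n` is its degree. -/
def HasGenus (g s c : MvPolynomial (Fin 3) ℂ) (n p : ℕ) : Prop :=
  ∃ t₀, ∀ t ≥ t₀, finrank ℂ (homogeneousSubmodule (Fin 3) ℂ (t + 3)) +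
    finrank ℂ (homogeneousSubmodule (Fin 3) ℂ t) + p =
      finrank ℂ (idealPart g s c t) + n * (t + 3) + 1

/-- The curve `g = 0` has even degree `2 r`, and it is the base of a scroll of lines whose Hilbert
polynomial has the right parity. -/
def EvenScroll (M : Matrix (Fin 4) (Fin 4) (MvPolynomial (Fin 3) ℂ))
    (g : MvPolynomial (Fin 3) ℂ) : Prop :=
  ∃ r w, g.IsHomogeneous (2 * r) ∧ IsScroll M g w ∧
    ∀ N, ∃ d, N ≤ d ∧ Odd (finrank ℂ (scrollForms g w d) + d + r)

/-- The curve `g = 0` has even degree `2 r` and splits, and the theta characteristic does not have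
exactly one section. -/
def EvenTheta (M : Matrix (Fin 4) (Fin 4) (MvPolynomial (Fin 3) ℂ))
    (g : MvPolynomial (Fin 3) ℂ) : Prop :=
  ∃ r s c, g.IsHomogeneous (2 * r) ∧ Splits M.det g s c ∧
    finrank ℂ (sections M.det (M.adjugate 3 3 * g) (r + 3)) ≠ 1

/-- The curve `g = 0` splits, and the half `D` of the split curve has odd degree and odd
arithmetic genus. -/
def OddType (M : Matrix (Fin 4) (Fin 4) (MvPolynomial (Fin 3) ℂ))
    (g : MvPolynomial (Fin 3) ℂ) : Prop :=
  ∃ n s c p, g.IsHomogeneous n ∧ Odd n ∧ Splits M.det g s c ∧ HasGenus g s c n p ∧ Odd p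

theorem result (M : Matrix (Fin 4) (Fin 4) (MvPolynomial (Fin 3) ℂ)) (hM : IsFibrationMatrix M)
    (hs : IsSmoothForm (cubicForm M))
    (h : IsIsotropic M ∨ ∃ g : MvPolynomial (Fin 3) ℂ, Irreducible g ∧ ¬ g ∣ M.det ∧
      (EvenScroll M g ∨ IsSmoothForm M.det ∧ (EvenTheta M g ∨ OddType M g))) :
    IsRationalForm (cubicForm M) := by
  have hs' : SmoothForm (H925.cubicOf M) := by
    intro z hz
    apply hs z
    intro i
    rw [H925.eval_eq_aeval]
    exact hz i
  rcases h with ⟨v, hv, hqv⟩ | ⟨g, hg, hgf, ⟨r, w, hgr, ⟨⟨e, hw⟩, hiso, i, j, hij⟩, hodd⟩ |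
    ⟨hC, ⟨r, s, c, hgr, ⟨⟨k, hc⟩, hgc, hd⟩, hV⟩ |
      ⟨n, s, c, p, hgr, hn, ⟨⟨k, hc⟩, hgc, hd⟩, ⟨t₀, ht₀⟩, hp⟩⟩⟩
  · exact Theta.rational_of_isotropic_matrix M hM.homogeneous hs' v hv hqv
  · refine Nod.even_scroll_theorem hM.symm hM.homogeneous hs' hg hgr hgf hw hiso hij ?_
    intro N
    obtain ⟨d, hd, ho⟩ := hodd N
    refine ⟨d, hd, ?_⟩
    have h1 : EvenN.PhiW g w H925.wt d = scrollForms g w d := by
      apply le_antisymm
      · rintro v ⟨hv1, hv2⟩
        refine Submodule.subset_span ⟨hv1, fun a => ?_⟩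
        have h3 : w a ⬝ᵥ v = ∑ i, v i * w a i :=
          Finset.sum_congr rfl fun i _ => mul_comm _ _
        rw [h3]
        exact hv2 a
      · rw [scrollForms, Submodule.span_le]
        rintro v ⟨hv1, hv2⟩
        refine ⟨hv1, fun a => ?_⟩
        have h3 : w a ⬝ᵥ v = ∑ i, v i * w a i :=
          Finset.sum_congr rfl fun i _ => mul_comm _ _
        rw [← h3]
        exact hv2 a
    rw [h1]
    exact ho
  · refine Theta.theta_main hM.symm hM.homogeneous hs' hC hg hgr hgf ⟨k, s, c, hc, hgc, hd⟩ ?_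
    rintro ⟨b₀, ⟨hb₀, hb₀2⟩, hbf, hb⟩
    apply hV
    have h0 : Ideal.Quotient.mk (Ideal.span {M.det}) b₀ ≠ 0 := by
      rwa [Ne, Ideal.Quotient.eq_zero_iff_mem, Ideal.mem_span_singleton]
    have h1 : sections M.det (M.adjugate 3 3 * g) (r + 3) =
        Submodule.span ℂ {Ideal.Quotient.mk (Ideal.span {M.det}) b₀} := by
      apply le_antisymm
      · rw [sections, Submodule.span_le]
        rintro _ ⟨b, ⟨hb1, hb2⟩, rfl⟩
        obtain ⟨c', hc'⟩ := hb b ⟨hb1, hb2⟩
        rw [SetLike.mem_coe, Submodule.mem_span_singleton]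
        refine ⟨c', ?_⟩
        rw [← Ideal.mem_span_singleton, ← Ideal.Quotient.eq_zero_iff_mem, map_sub, map_mul,
          sub_eq_zero] at hc'
        rw [hc', ← map_mul, ← smul_eq_C_mul]
        rfl
      · rw [Submodule.span_singleton_le_iff_mem]
        exact Submodule.subset_span ⟨b₀, ⟨hb₀, hb₀2⟩, rfl⟩
    rw [h1, finrank_span_singleton h0]
  · refine H597.odd_moving hM.symm hM.homogeneous hs' hC hn hg hgr hc hgc hd hp
      ⟨t₀, fun t ht => ?_⟩
    have h : H69.Rel g c s t = idealPart g s c t := by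
      apply le_antisymm
      · intro v hv
        exact Submodule.subset_span hv
      · rw [idealPart, Submodule.span_le]
        intro v hv
        exact hv
    rw [h]
    exact ht₀ t ht

end Vale.Agent.Results.P287.PlaneCubics
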