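import Vale.Agent.P287.H270.EvenScroll
import Vale.Agent.P287.H270.OddScroll

/-!
Rationality of a smooth cubic fourfold `X` which contains a plane `P` and a scroll of lines over an
irreducible plane curve, in the fibres of the quadric surface fibration given by the projection from
`P`.

If the curve has even degree `2 r`, then `X` is rational in each of the following cases:

* (Hilbert polynomial) for infinitely many `d`, the forms of degree `r + d + 1` with multiplicity
  at least `r + d` along `P` which contain the scroll form a space of dimension `2 d² + 7 d + 5`;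
* no form of degree `r` with multiplicity `r - 1` along `P`, and at least a five dimensional space
  of forms of degree `r + 1` with multiplicity `r` along `P`, contain the scroll.

If the curve has odd degree `2 m + 1`, the discriminant curve of the fibration is smooth and the
scroll has even degree, then `X` is rational in each of the following cases:

* (Hilbert polynomial) for infinitely many `d`, the forms of degree `m + d + 1` with multiplicity
  at least `m + d` along `P` which contain the scroll form a space of dimension at least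
  `2 d² + 5 d + 3`;
* there are three forms of degree `m + 1`, with multiplicity `m` along `P`, which vanish on the
  scroll and are independent at the generic point of the plane.
-/

namespace Vale.Agent.Results.P287.Scrolls

open MvPolynomial Matrix

/-- The weights `0, 0, 0, 1` of the four coordinates `y₀, y₁, y₂, 1`. -/
def weight : Fin 4 → ℕ := ![0, 0, 0, 1]

/-- `M` is the matrix of the quadric surface fibration of a cubic fourfold containing the plane
`x₀ = x₁ = x₂ = 0`: it is symmetric and `M i j` is a form in `x₀, x₁, x₂` of degree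
`1 + weight i + weight j`. -/
structure IsFibrationMatrix (M : Matrix (Fin 4) (Fin 4) (MvPolynomial (Fin 3) ℂ)) : Prop where
  symm : M.IsSymm
  homogeneous : ∀ i j, (M i j).IsHomogeneous (1 + weight i + weight j)

/-- The cubic form `∑ M i j (x₀, x₁, x₂) v_i v_j` with `v = (x₃, x₄, x₅, 1)`. -/
noncomputable def cubicForm (M : Matrix (Fin 4) (Fin 4) (MvPolynomial (Fin 3) ℂ)) :
    MvPolynomial (Fin 6) ℂ :=
  ![X 3, X 4, X 5, 1] ⬝ᵥ ((M.map (aeval ![X 0, X 1, X 2])) *ᵥ ![X 3, X 4, X 5, 1])

/-- The form `F` is smooth: its partial derivatives have no common zero but the origin. -/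
def IsSmoothForm {n : ℕ} (F : MvPolynomial (Fin n) ℂ) : Prop :=
  ∀ z : Fin n → ℂ, (∀ i, eval z (pderiv i F) = 0) → z = 0

/-- The hypersurface `F = 0` is rational: its function field, in the chart `x₀ = 1`, is the field
of rational functions in four variables over `ℂ`. -/
def IsRationalForm (F : MvPolynomial (Fin 6) ℂ) : Prop :=
  Nonempty (FractionRing (MvPolynomial (Fin 5) ℂ ⧸
      Ideal.span {aeval (Fin.cons 1 X : Fin 6 → MvPolynomial (Fin 5) ℂ) F}) ≃ₐ[ℂ]
    FractionRing (MvPolynomial (Fin 4) ℂ))

/-- The field `K = ℂ(s₀, s₁)`. -/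
abbrev K : Type := FractionRing (MvPolynomial (Fin 2) ℂ)

/-- The generic point `(1, s₀, s₁)` of the plane. -/
noncomputable def gen : Fin 3 → K :=
  ![1, algebraMap (MvPolynomial (Fin 2) ℂ) K (X 0), algebraMap (MvPolynomial (Fin 2) ℂ) K (X 1)]

/-- The forms `f₀ y₀ + f₁ y₁ + f₂ y₂ + f₃` of degree `n + 1` in the six variables, with
`f₀, f₁, f₂, f₃` forms in `x₀, x₁, x₂` of degree `n, n, n, n + 1` (multiplicity at least `n` along
the plane `x₀ = x₁ = x₂ = 0`), which vanish on the scroll given by the plane `W` in `κ⁴`. -/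
def scrollForms {κ : Type} [Field κ] (φ : MvPolynomial (Fin 3) ℂ →+* κ)
    (W : Submodule κ (Fin 4 → κ)) (n : ℕ) : Submodule ℂ (Fin 4 → MvPolynomial (Fin 3) ℂ) where
  carrier := {f | (∀ i, (f i).IsHomogeneous (n + weight i)) ∧ ∀ w ∈ W, ∑ i, φ (f i) * w i = 0}
  add_mem' := by
    rintro f f' ⟨h1, h2⟩ ⟨h1', h2'⟩
    refine ⟨fun i => (h1 i).add (h1' i), fun w hw => ?_⟩
    simp only [Pi.add_apply, map_add, add_mul, Finset.sum_add_distrib, h2 w hw, h2' w hw, add_zero]
  zero_mem' := ⟨fun i => isHomogeneous_zero _ _ _, fun w _ => by simp⟩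
  smul_mem' := by
    rintro c f ⟨h1, h2⟩
    refine ⟨fun i => ?_, fun w hw => ?_⟩
    · rw [Pi.smul_apply, smul_eq_C_mul]
      exact (h1 i).C_mul c
    · have h3 := h2 w hw
      simp only [Pi.smul_apply, smul_eq_C_mul, map_mul]
      calc ∑ i, φ (C c) * φ (f i) * w i = φ (C c) * ∑ i, φ (f i) * w i := by
            rw [Finset.mul_sum]
            exact Finset.sum_congr rfl fun i _ => by ring
        _ = 0 := by rw [h3, mul_zero]

/-- The polynomials which vanish on the scroll of the lines `W`: the points
`(w₃ x₀ : w₃ x₁ : w₃ x₂ : w₀ : w₁ : w₂)` with `w ∈ W`. -/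
def scrollIdeal {κ : Type} [Field κ] (φ : MvPolynomial (Fin 3) ℂ →+* κ)
    (W : Submodule κ (Fin 4 → κ)) : Set (MvPolynomial (Fin 6) ℂ) :=
  {p | ∀ w ∈ W, eval₂ (φ.comp C)
    ![w 3 * φ (X 0), w 3 * φ (X 1), w 3 * φ (X 2), w 0, w 1, w 2] p = 0}

/-- The field `ℂ(l)` generated by the coefficients of the linear forms `l₀, l₁`. -/
noncomputable def coeffField {k : Type} [Field k] [Algebra ℂ k] (l : Fin 2 → Fin 6 → k) :
    IntermediateField ℂ k :=
  IntermediateField.adjoin ℂ (Set.range fun ia : Fin 2 × Fin 6 => l ia.1 ia.2)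

/-- The degree over `ℂ(l)` of the point with coordinates `z`. -/
noncomputable def pointDegree {k : Type} [Field k] [Algebra ℂ k] (l : Fin 2 → Fin 6 → k)
    (z : Fin 6 → k) : ℕ :=
  Module.finrank (coeffField l) (IntermediateField.adjoin (coeffField l) (Set.range z))

/-- `z` is a point, with a coordinate equal to one, of the intersection of the surface with ideal `I`
and the linear subspace `l₀ = l₁ = 0`. -/
structure IsSectionPoint (I : Set (MvPolynomial (Fin 6) ℂ)) {k : Type} [Field k] [Algebra ℂ k]
    (l : Fin 2 → Fin 6 → k) (z : Fin 6 → k) : Prop where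
  one : ∃ i, z i = 1
  surface : ∀ p ∈ I, aeval z p = 0
  subspace : ∀ i, ∑ a, l i a * z a = 0

/-- The irreducible surface in `ℙ⁵` with ideal `I` has degree `s`: its intersection with the generic
linear subspace `l₀ = l₁ = 0` of codimension two, with independent coefficients, is a point of
degree `s` over the field `ℂ(l)` generated by the coefficients. -/
def HasDegree (I : Set (MvPolynomial (Fin 6) ℂ)) (s : ℕ) : Prop :=
  0 < s ∧ ∀ (k : Type) [Field k] [Algebra ℂ k] (l : Fin 2 → Fin 6 → k) (z : Fin 6 → k),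
    AlgebraicIndependent ℂ (fun ia : Fin 2 × Fin 6 => l ia.1 ia.2) → IsSectionPoint I l z →
      pointDegree l z = s

/-- `W` is a scroll of lines over the irreducible curve `g = 0` in the fibres of the quadric surface
fibration with matrix `M`: the field `κ` is an extension, via `φ`, of the field of fractions of
`ℂ[x₀, x₁, x₂] / (g)`, and `W` is a two dimensional isotropic subspace. -/
structure IsScroll (M : Matrix (Fin 4) (Fin 4) (MvPolynomial (Fin 3) ℂ))
    (g : MvPolynomial (Fin 3) ℂ) {κ : Type} [Field κ] (φ : MvPolynomial (Fin 3) ℂ →+* κ)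
    (W : Submodule κ (Fin 4 → κ)) : Prop where
  kernel : ∀ p, φ p = 0 ↔ g ∣ p
  line : Module.finrank κ W = 2
  isotropic : ∀ w ∈ W, w ⬝ᵥ (M.map φ *ᵥ w) = 0

/-- The forms `f₀, f₁, f₂` are linearly independent over `K` at the generic point of the plane. -/
def GenericallyIndependent (f : Fin 3 → Fin 4 → MvPolynomial (Fin 3) ℂ) : Prop :=
  LinearIndependent K (fun j i => (aeval gen (f j i) : K))

/-- The curve `g = 0` has even degree `2 r`, and the spaces of forms containing the scroll satisfy one
of two numerical conditions. -/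
def EvenCase (g : MvPolynomial (Fin 3) ℂ) {κ : Type} [Field κ] (φ : MvPolynomial (Fin 3) ℂ →+* κ)
    (W : Submodule κ (Fin 4 → κ)) : Prop :=
  ∃ r : ℕ, g.IsHomogeneous (2 * r) ∧
    ((∀ N : ℕ, ∃ d, N ≤ d ∧
        Module.finrank ℂ (scrollForms φ W (r + d)) = 2 * d ^ 2 + 7 * d + 5) ∨
      (scrollForms φ W (r - 1) = ⊥ ∧ 5 ≤ Module.finrank ℂ (scrollForms φ W r)))

/-- The curve `g = 0` has odd degree `2 m + 1 ≥ 5`, the scroll has even degree, and it is contained
in many forms or in three independent forms of low degree. -/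
def OddCase (g : MvPolynomial (Fin 3) ℂ) {κ : Type} [Field κ] (φ : MvPolynomial (Fin 3) ℂ →+* κ)
    (W : Submodule κ (Fin 4 → κ)) : Prop :=
  ∃ m : ℕ, 2 ≤ m ∧ g.IsHomogeneous (2 * m + 1) ∧
    (∃ s, HasDegree (scrollIdeal φ W) s ∧ Even s) ∧
    ((∀ N : ℕ, ∃ d, N ≤ d ∧
        2 * d ^ 2 + 5 * d + 3 ≤ Module.finrank ℂ (scrollForms φ W (m + d))) ∨
      (∃ f : Fin 3 → Fin 4 → MvPolynomial (Fin 3) ℂ,
        (∀ j, f j ∈ scrollForms φ W m) ∧ GenericallyIndependent f))

theorem result (M : Matrix (Fin 4) (Fin 4) (MvPolynomial (Fin 3) ℂ)) (hM : IsFibrationMatrix M)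
    (hs : IsSmoothForm (cubicForm M))
    (g : MvPolynomial (Fin 3) ℂ) (hg : Irreducible g)
    (κ : Type) [Field κ] (φ : MvPolynomial (Fin 3) ℂ →+* κ)
    (W : Submodule κ (Fin 4 → κ)) (hW : IsScroll M g φ W)
    (h : EvenCase g φ W ∨ (IsSmoothForm M.det ∧ OddCase g φ W)) :
    IsRationalForm (cubicForm M) := by
  have hs' : Vale.Agent.P287.SmoothForm (Vale.Agent.P287.H925.cubicOf M) := by
    intro z hz
    apply hs z
    intro i
    rw [Vale.Agent.P287.H925.eval_eq_aeval]
    exact hz i
  rcases h with ⟨r, hgr, h | ⟨h0, h5⟩⟩ | ⟨hC, m, hm, hgm, ⟨s, hdeg, heven⟩, h⟩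
  · exact Vale.Agent.P287.H270.even_scroll_theorem M hM.symm hM.homogeneous hs' φ g hg hW.kernel r
      hgr W hW.line hW.isotropic h
  · obtain ⟨f, hf⟩ := exists_linearIndependent_of_le_finrank h5
    refine Vale.Agent.P287.H925.scroll_theorem M hM.symm hM.homogeneous hs' φ g hg hW.kernel r hgr
      W hW.line hW.isotropic (fun j => (f j : Fin 4 → MvPolynomial (Fin 3) ℂ))
      (fun j => ⟨(f j).2.1, (f j).2.2⟩) ?_ ?_
    · intro c hc
      rw [Fintype.linearIndependent_iff] at hf
      have h1 := hf c (by
        apply Subtype.ext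
        funext i
        rw [Submodule.coe_sum, Submodule.coe_zero, Pi.zero_apply, ← hc i]
        simp [Finset.sum_apply, smul_eq_C_mul])
      exact funext h1
    · intro f hf
      have h1 : f ∈ scrollForms φ W (r - 1) := ⟨hf.hom, hf.van⟩
      rw [h0] at h1
      exact h1
  · have hC' : ∀ z : Fin 3 → ℂ, (∀ i, aeval z (pderiv i M.det) = 0) → z = 0 := by
      intro z hz
      apply hC z
      intro i
      rw [Vale.Agent.P287.H925.eval_eq_aeval]
      exact hz i
    have hd : Vale.Agent.P287.H69.HasDegree (Vale.Agent.P287.H69.scrollIdealM φ W) s :=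
      ⟨hdeg.1, fun k _ _ l z h1 h2 h3 h4 => hdeg.2 k l z h1 ⟨h2, h3, h4⟩⟩
    rcases h with h | ⟨f, hf, hind⟩
    · exact Vale.Agent.P287.H270.odd_scroll_numeric M hM.symm hM.homogeneous hs' hC' φ g hg
        hW.kernel hm hgm W hW.line hW.isotropic h heven hd
    · exact Vale.Agent.P287.H69.odd_scroll_theorem M hM.symm hM.homogeneous hs' hC' φ g hg
        hW.kernel hm hgm W hW.line hW.isotropic f (fun j => ⟨(hf j).1, (hf j).2⟩) hind heven hd

end Vale.Agent.Results.P287.Scrolls
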