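import Vale.Agent.P287.H3.Final2

/-!
Smooth cubic fourfolds fibred in sextic del Pezzo surfaces over the projective plane are rational
when the cubic form in nine variables of the fibration is isotropic, or similar to the one of a
general net of type `G₂`; two such fourfolds with similar forms are birational.
-/

namespace Vale.Agent.Results.P287.SexticDelPezzoNets

open MvPolynomial Vale.Agent.P287.H3 Vale.Agent.P287.H925

theorem result :
    (∀ D : Data18, Irreducible D.plane → D.HasCube) ∧
    (∀ B : NetG2, B.IsGeneral → B.HasCube) ∧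
    (∀ D : Data18, D.IsGeneral → ∀ (M : Type) [Field M] [Algebra KK M]
      (ι : (Fin 3 → KK) ≃ₗ[KK] M) (c : CubeData KK M), D.IsCube ι c →
        c.disc ≠ 0 ∧ (c.IsIsotropic ∨ c.IsOfNet → IsRational D.form)) ∧
    (∀ D D' : Data18, D.IsGeneral → D'.IsGeneral →
      ∀ (M N : Type) [Field M] [Field N] [Algebra KK M] [Algebra KK N]
        (ι : (Fin 3 → KK) ≃ₗ[KK] M) (c : CubeData KK M) (ι' : (Fin 3 → KK) ≃ₗ[KK] N)
        (c' : CubeData KK N), D.IsCube ι c → D'.IsCube ι' c' → Similar c c' →
        IsBirational D.form D'.form) :=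
  ⟨cube_exists, netCube_exists,
    fun _ h _ _ _ _ _ hX =>
      ⟨Data18.disc_ne_zero h.1 h.2 hX, fun h' => rational_smooth h.1 h.2 hX h'⟩,
    fun _ _ h h' _ _ _ _ _ _ _ _ _ _ hX hX' hc =>
      birational_smooth h.1 h'.1 h.2 h'.2 hX hX' hc⟩

end Vale.Agent.Results.P287.SexticDelPezzoNets
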